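import Mathlib

/-!
# P058: cyclic kites inside finite sets with a soluble transitive group of isometries

Shared definitions.
-/

namespace Vale.Agent.Lib.P058

/-- The plane `ℂ × ℂ` with the Euclidean distance (this is four-dimensional Euclidean space). -/
abbrev E2 : Type := EuclideanSpace ℂ (Fin 2)

/-- The point of `E2` with coordinates `x`, `y`. -/
noncomputable def mk2 (x y : ℂ) : E2 := WithLp.toLp 2 ![x, y]

/-- The orbit of `a` under the maps `u ↦ z * u` and `u ↦ z * conj u` with `z ^ n = 1`. -/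
def Dorb (n : ℕ) (a : ℂ) : Set ℂ :=
  {u | ∃ z : ℂ, z ^ n = 1 ∧ (u = z * a ∨ u = z * (starRingEnd ℂ) a)}

/-- The product set `Dorb n a × Dorb n a` inside `E2`. -/
def Xset (n : ℕ) (a : ℂ) : Set E2 := {p | p 0 ∈ Dorb n a ∧ p 1 ∈ Dorb n a}

/-- A pair of linear isometries of the plane acting on the two coordinates of `E2`. -/
noncomputable def pairAct (g : (ℂ ≃ₗᵢ[ℝ] ℂ) × (ℂ ≃ₗᵢ[ℝ] ℂ)) : E2 ≃ᵢ E2 :=
  (LinearIsometryEquiv.piLpCongrRight 2
    (fun i : Fin 2 => if i = 0 then g.1 else g.2)).toIsometryEquiv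

end Vale.Agent.Lib.P058
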